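import Mathlib

namespace Vale.Agent.Lib.P074

open Finset

section
variable {F : Type*} [NormedAddCommGroup F] [InnerProductSpace ℝ F]

/-- value at `z` of the chain `a 0, ..., a k` -/
noncomputable def chainVal (S : F → F) (k : ℕ) (a : ℕ → F) (z : F) : ℝ :=
  inner ℝ (S (a k)) (z - a k) + ∑ i ∈ range k, inner ℝ (S (a i)) (a (i + 1) - a i)

/-- admissible chains: start at `x0`, distinct points of `A` -/
def IsChain (A : Set F) (x0 : F) (k : ℕ) (a : ℕ → F) : Prop :=
  a 0 = x0 ∧ Set.InjOn a (Set.Iic k) ∧ ∀ i ≤ k, a i ∈ A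

theorem cyc_le (A : Set F) (S : F → F)
    (hcm : ∀ (n : ℕ) (x : Fin (n + 1) → F), Function.Injective x → (∀ i, x i ∈ A) →
      ∑ i, inner ℝ (S (x i)) (x (i + 1) - x i) ≤ 0)
    (a : ℕ → F) (j n : ℕ) (hinj : Set.InjOn a (Set.Iic (j + n)))
    (hmem : ∀ i ≤ j + n, a i ∈ A) :
    ∑ i ∈ range n, inner ℝ (S (a (j + i))) (a (j + (i + 1)) - a (j + i))
      + inner ℝ (S (a (j + n))) (a j - a (j + n)) ≤ 0 := by
  have h := hcm n (fun i : Fin (n + 1) => a (j + (i : ℕ))) ?_ ?_
  · rw [Fin.sum_univ_castSucc] at h
    have e1 : ∑ i : Fin n, inner ℝ (S (a (j + ((i.castSucc : Fin (n + 1)) : ℕ))))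
        (a (j + ((i.castSucc + 1 : Fin (n + 1)) : ℕ)) - a (j + ((i.castSucc : Fin (n + 1)) : ℕ)))
        = ∑ i ∈ range n, inner ℝ (S (a (j + i))) (a (j + (i + 1)) - a (j + i)) := by
      rw [← Fin.sum_univ_eq_sum_range
        (fun i => inner ℝ (S (a (j + i))) (a (j + (i + 1)) - a (j + i))) n]
      refine Finset.sum_congr rfl fun i _ => ?_
      rw [Fin.coeSucc_eq_succ]
      simp
    have e2 : ((Fin.last n + 1 : Fin (n + 1)) : ℕ) = 0 := by
      rw [Fin.last_add_one]; rfl
    simp only [e1, e2, Fin.val_last, add_zero] at h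
    exact h
  · intro x y hxy
    have hx : j + (x : ℕ) ∈ Set.Iic (j + n) := by
      have := x.isLt
      simp only [Set.mem_Iic]; omega
    have hy : j + (y : ℕ) ∈ Set.Iic (j + n) := by
      have := y.isLt
      simp only [Set.mem_Iic]; omega
    have := hinj hx hy hxy
    exact Fin.ext (by omega)
  · intro i
    have := i.isLt
    exact hmem _ (by omega)

theorem rockafellar (A : Set F) (hA : A.Nonempty) (S : F → F) (R : ℝ)
    (hR : ∀ x ∈ A, ‖S x‖ ≤ R)
    (hcm : ∀ (n : ℕ) (x : Fin (n + 1) → F), Function.Injective x → (∀ i, x i ∈ A) →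
      ∑ i, inner ℝ (S (x i)) (x (i + 1) - x i) ≤ 0) :
    ∃ ψ : F → ℝ, ConvexOn ℝ Set.univ ψ ∧ (∀ x y, |ψ x - ψ y| ≤ R * ‖x - y‖) ∧
      ∀ x ∈ A, ∀ z, ψ x + inner ℝ (S x) (z - x) ≤ ψ z := by
  classical
  obtain ⟨x0, hx0⟩ := hA
  set V : F → Set ℝ := fun z => {v | ∃ k a, IsChain A x0 k a ∧ v = chainVal S k a z} with hV
  -- shifting the evaluation point
  have hshift : ∀ k a z z', chainVal S k a z = chainVal S k a z' + inner ℝ (S (a k)) (z - z') := by
    intro k a z z'
    unfold chainVal
    have : z - a k = (z' - a k) + (z - z') := by abel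
    rw [this, inner_add_right]
    ring
  -- value at the starting point is nonpositive
  have hstart : ∀ k a, IsChain A x0 k a → chainVal S k a x0 ≤ 0 := by
    intro k a hc
    obtain ⟨h0, hinj, hmem⟩ := hc
    have := cyc_le A S hcm a 0 k (by simpa using hinj) (by simpa using hmem)
    unfold chainVal
    simp only [zero_add] at this
    rw [h0] at this
    linarith
  have hRk : ∀ k a, IsChain A x0 k a → ∀ w : F, inner ℝ (S (a k)) w ≤ R * ‖w‖ := by
    intro k a hc w
    have h1 := real_inner_le_norm (S (a k)) w
    have h2 := hR (a k) (hc.2.2 k le_rfl)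
    have h3 : ‖S (a k)‖ * ‖w‖ ≤ R * ‖w‖ := mul_le_mul_of_nonneg_right h2 (norm_nonneg _)
    linarith
  have hbdd : ∀ z, BddAbove (V z) := by
    intro z
    refine ⟨R * ‖z - x0‖, ?_⟩
    rintro v ⟨k, a, hc, rfl⟩
    rw [hshift k a z x0]
    have := hstart k a hc
    have := hRk k a hc (z - x0)
    linarith
  have hne : ∀ z, (V z).Nonempty := by
    intro z
    refine ⟨chainVal S 0 (fun _ => x0) z, 0, fun _ => x0, ⟨rfl, ?_, fun _ _ => hx0⟩, rfl⟩
    intro x hx y hy _
    simp only [Set.mem_Iic, Nat.le_zero] at hx hy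
    rw [hx, hy]
  refine ⟨fun z => sSup (V z), ?_, ?_, ?_⟩
  · refine ⟨convex_univ, ?_⟩
    intro x _ y _ s t hs ht hst
    apply csSup_le (hne _)
    rintro v ⟨k, a, hc, rfl⟩
    have hx : chainVal S k a x ≤ sSup (V x) := le_csSup (hbdd x) ⟨k, a, hc, rfl⟩
    have hy : chainVal S k a y ≤ sSup (V y) := le_csSup (hbdd y) ⟨k, a, hc, rfl⟩
    have e : chainVal S k a (s • x + t • y) = s * chainVal S k a x + t * chainVal S k a y := by
      unfold chainVal
      have e1 : s • x + t • y - a k = s • (x - a k) + t • (y - a k) := by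
        have : a k = s • a k + t • a k := by rw [← add_smul, hst, one_smul]
        nth_rewrite 1 [this]
        simp only [smul_sub]
        abel
      rw [e1, inner_add_right, inner_smul_right, inner_smul_right]
      have : ∑ i ∈ range k, inner ℝ (S (a i)) (a (i + 1) - a i)
          = (s + t) * ∑ i ∈ range k, inner ℝ (S (a i)) (a (i + 1) - a i) := by
        rw [hst, one_mul]
      nth_rewrite 1 [this]
      ring
    rw [e]
    simp only [smul_eq_mul]
    have h1 := mul_le_mul_of_nonneg_left hx hs
    have h2 := mul_le_mul_of_nonneg_left hy ht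
    linarith
  · have key : ∀ x y, sSup (V x) ≤ sSup (V y) + R * ‖x - y‖ := by
      intro x y
      apply csSup_le (hne _)
      rintro v ⟨k, a, hc, rfl⟩
      have hy : chainVal S k a y ≤ sSup (V y) := le_csSup (hbdd y) ⟨k, a, hc, rfl⟩
      rw [hshift k a x y]
      have := hRk k a hc (x - y)
      linarith
    intro x y
    rw [abs_le]
    have h1 := key x y
    have h2 := key y x
    rw [norm_sub_rev] at h2
    constructor <;> linarith
  · intro p hp z
    have key : sSup (V p) ≤ sSup (V z) - inner ℝ (S p) (z - p) := by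
      apply csSup_le (hne _)
      rintro v ⟨k, a, hc, rfl⟩
      obtain ⟨h0, hinj, hmem⟩ := hc
      by_cases hex : ∃ j ≤ k, a j = p
      · obtain ⟨j, hjk, hj⟩ := hex
        have hcj : IsChain A x0 j a :=
          ⟨h0, hinj.mono (fun i hi => le_trans hi hjk), fun i hi => hmem i (le_trans hi hjk)⟩
        have hz : chainVal S j a z ≤ sSup (V z) := le_csSup (hbdd z) ⟨j, a, hcj, rfl⟩
        obtain ⟨n, rfl⟩ := Nat.exists_eq_add_of_le hjk
        have hcyc := cyc_le A S hcm a j n hinj hmem
        unfold chainVal at hz ⊢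
        rw [Finset.sum_range_add]
        have e : ∀ i, a (j + i + 1) = a (j + (i + 1)) := fun i => by rw [add_assoc]
        simp only [e]
        rw [hj] at hz hcyc
        linarith
      · push Not at hex
        set a' : ℕ → F := Function.update a (k + 1) p with ha'
        have ha'i : ∀ i ≤ k, a' i = a i := by
          intro i hi
          rw [ha', Function.update_of_ne (by omega)]
        have ha'k : a' (k + 1) = p := by rw [ha', Function.update_self]
        have hc' : IsChain A x0 (k + 1) a' := by
          refine ⟨by rw [ha'i 0 (Nat.zero_le _)]; exact h0, ?_, ?_⟩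
          · intro x hx y hy hxy
            simp only [Set.mem_Iic] at hx hy
            rcases Nat.lt_or_ge x (k + 1) with hxk | hxk
            · rcases Nat.lt_or_ge y (k + 1) with hyk | hyk
              · rw [ha'i x (by omega), ha'i y (by omega)] at hxy
                exact hinj (by simp only [Set.mem_Iic]; omega) (by simp only [Set.mem_Iic]; omega) hxy
              · have hy' : y = k + 1 := by omega
                rw [hy', ha'k, ha'i x (by omega)] at hxy
                exact absurd hxy (hex x (by omega))
            · have hx' : x = k + 1 := by omega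
              rcases Nat.lt_or_ge y (k + 1) with hyk | hyk
              · rw [hx', ha'k, ha'i y (by omega)] at hxy
                exact absurd hxy.symm (hex y (by omega))
              · omega
          · intro i hi
            rcases Nat.lt_or_ge i (k + 1) with hik | hik
            · rw [ha'i i (by omega)]; exact hmem i (by omega)
            · have : i = k + 1 := by omega
              rw [this, ha'k]; exact hp
        have hz : chainVal S (k + 1) a' z ≤ sSup (V z) :=
          le_csSup (hbdd z) ⟨k + 1, a', hc', rfl⟩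
        have e : chainVal S (k + 1) a' z = inner ℝ (S p) (z - p) + chainVal S k a p := by
          unfold chainVal
          rw [Finset.sum_range_succ, ha'k, ha'i k le_rfl]
          have : ∑ i ∈ range k, inner ℝ (S (a' i)) (a' (i + 1) - a' i)
              = ∑ i ∈ range k, inner ℝ (S (a i)) (a (i + 1) - a i) := by
            refine Finset.sum_congr rfl fun i hi => ?_
            have := Finset.mem_range.mp hi
            rw [ha'i i (by omega), ha'i (i + 1) (by omega)]
          rw [this]
          ring
        linarith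
    linarith

end

end Vale.Agent.Lib.P074
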