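import Vale.Agent.Lib.P074.Third.Basic

/-!
# P074: existence of a power diagram with prescribed cell masses

Variational proof: minimize `Φ(ψ) = ∫ ppot y ψ dρ + ∑ m k * ψ k` over the weights.
-/

namespace Vale.Agent.Lib.P074

open MeasureTheory ENNReal

namespace Exist

variable {d n : ℕ}

/-- Raise the weight of the site `i` by `t`. -/
noncomputable def bump (ψ : Fin (n + 1) → ℝ) (i : Fin (n + 1)) (t : ℝ) : Fin (n + 1) → ℝ :=
  Function.update ψ i (ψ i + t)

lemma bump_self (ψ : Fin (n + 1) → ℝ) (i : Fin (n + 1)) (t : ℝ) : bump ψ i t i = ψ i + t := by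
  simp [bump]

lemma bump_of_ne (ψ : Fin (n + 1) → ℝ) {i j : Fin (n + 1)} (h : j ≠ i) (t : ℝ) :
    bump ψ i t j = ψ j := by
  simp [bump, Function.update_of_ne h]

lemma abs_ppot_sub_le (y : Fin (n + 1) → E d) (ψ ψ' : Fin (n + 1) → ℝ) (x : E d) :
    |ppot y ψ x - ppot y ψ' x| ≤ ‖ψ - ψ'‖ := by
  have key : ∀ (a b : Fin (n + 1) → ℝ), ppot y a x - ppot y b x ≤ ‖a - b‖ := by
    intro a b
    rw [ppot_eq_pidx y a x]
    have h := ppot_ge y b x (pidx y a x)
    have h2 : ‖(a - b) (pidx y a x)‖ ≤ ‖a - b‖ := norm_le_pi_norm (a - b) _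
    rw [Real.norm_eq_abs, Pi.sub_apply] at h2
    have h3 := neg_abs_le (a (pidx y a x) - b (pidx y a x))
    linarith
  rw [abs_le]
  constructor
  · have := key ψ' ψ
    rw [norm_sub_rev] at this
    linarith
  · exact key ψ ψ'

lemma exists_bound (y : Fin (n + 1) → E d) : ∃ R : ℝ, 0 ≤ R ∧ ∀ k, ‖y k‖ ≤ R :=
  ⟨∑ k, ‖y k‖, Finset.sum_nonneg (fun _ _ => norm_nonneg _), fun k =>
    Finset.single_le_sum (f := fun k => ‖y k‖) (fun _ _ => norm_nonneg _) (Finset.mem_univ k)⟩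

lemma continuous_ppot (y : Fin (n + 1) → E d) (ψ : Fin (n + 1) → ℝ) :
    Continuous (ppot y ψ) := by
  obtain ⟨R, -, hR⟩ := exists_bound y
  exact lipschitz_continuous (ppot_lipschitz hR ψ)

lemma abs_ppot_le {y : Fin (n + 1) → E d} {R : ℝ} (hR : ∀ k, ‖y k‖ ≤ R)
    (ψ : Fin (n + 1) → ℝ) {x : E d} {D : ℝ} (hx : ‖x‖ ≤ D) :
    |ppot y ψ x| ≤ D * R + ‖ψ‖ := by
  rw [ppot_eq_pidx y ψ x]
  set k := pidx y ψ x
  have h1 : |inner ℝ x (y k)| ≤ ‖x‖ * ‖y k‖ := abs_real_inner_le_norm _ _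
  have h2 : ‖x‖ * ‖y k‖ ≤ D * R :=
    mul_le_mul hx (hR k) (norm_nonneg _) (le_trans (norm_nonneg _) hx)
  have h3 : |ψ k| ≤ ‖ψ‖ := by
    have := norm_le_pi_norm ψ k
    rwa [Real.norm_eq_abs] at this
  have h4 : |inner ℝ x (y k) - ψ k| ≤ |inner ℝ x (y k)| + |ψ k| := abs_sub _ _
  linarith

lemma integrable_ppot {K : Set (E d)} (hK : IsCompact K) (hint : (interior K).Nonempty)
    (y : Fin (n + 1) → E d) (ψ : Fin (n + 1) → ℝ) : Integrable (ppot y ψ) (unif K) := by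
  have := unif_isProbabilityMeasure hK hint
  obtain ⟨R, -, hR⟩ := exists_bound y
  obtain ⟨D, hD⟩ := hK.isBounded.exists_norm_le
  refine Integrable.of_bound (continuous_ppot y ψ).aestronglyMeasurable (D * R + ‖ψ‖) ?_
  filter_upwards [ae_mem_unif hK] with x hx
  rw [Real.norm_eq_abs]
  exact abs_ppot_le hR ψ (hD x hx)

/-- The functional whose minimizers are the weights of the sought power diagram. -/
noncomputable def Phi (K : Set (E d)) (y : Fin (n + 1) → E d) (m : Fin (n + 1) → ℝ)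
    (ψ : Fin (n + 1) → ℝ) : ℝ :=
  ∫ x, ppot y ψ x ∂(unif K) + ∑ k, m k * ψ k

lemma Phi_sub_le {K : Set (E d)} (hK : IsCompact K) (hint : (interior K).Nonempty)
    (y : Fin (n + 1) → E d) {m : Fin (n + 1) → ℝ} (hm : ∀ k, 0 ≤ m k) (hsum : ∑ k, m k = 1)
    (ψ ψ' : Fin (n + 1) → ℝ) : |Phi K y m ψ - Phi K y m ψ'| ≤ 2 * ‖ψ - ψ'‖ := by
  have := unif_isProbabilityMeasure hK hint
  have h1 : |∫ x, ppot y ψ x ∂(unif K) - ∫ x, ppot y ψ' x ∂(unif K)| ≤ ‖ψ - ψ'‖ := by
    rw [← integral_sub (integrable_ppot hK hint y ψ) (integrable_ppot hK hint y ψ')]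
    have hI : Integrable (fun x => ppot y ψ x - ppot y ψ' x) (unif K) :=
      (integrable_ppot hK hint y ψ).sub (integrable_ppot hK hint y ψ')
    calc |∫ x, (ppot y ψ x - ppot y ψ' x) ∂(unif K)|
        ≤ ∫ x, |ppot y ψ x - ppot y ψ' x| ∂(unif K) := abs_integral_le_integral_abs
      _ ≤ ∫ _, ‖ψ - ψ'‖ ∂(unif K) :=
          integral_mono hI.abs (integrable_const _) (fun x => abs_ppot_sub_le y ψ ψ' x)
      _ = ‖ψ - ψ'‖ := by simp
  have h2 : |∑ k, m k * ψ k - ∑ k, m k * ψ' k| ≤ ‖ψ - ψ'‖ := by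
    rw [← Finset.sum_sub_distrib]
    calc |∑ k, (m k * ψ k - m k * ψ' k)| ≤ ∑ k, |m k * ψ k - m k * ψ' k| :=
          Finset.abs_sum_le_sum_abs _ _
      _ ≤ ∑ k, m k * ‖ψ - ψ'‖ := by
          refine Finset.sum_le_sum fun k _ => ?_
          rw [← mul_sub, abs_mul, abs_of_nonneg (hm k)]
          refine mul_le_mul_of_nonneg_left ?_ (hm k)
          have := norm_le_pi_norm (ψ - ψ') k
          rwa [Real.norm_eq_abs, Pi.sub_apply] at this
      _ = ‖ψ - ψ'‖ := by rw [← Finset.sum_mul, hsum, one_mul]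
  unfold Phi
  have hsplit : (∫ x, ppot y ψ x ∂(unif K) + ∑ k, m k * ψ k) -
      (∫ x, ppot y ψ' x ∂(unif K) + ∑ k, m k * ψ' k) =
      (∫ x, ppot y ψ x ∂(unif K) - ∫ x, ppot y ψ' x ∂(unif K)) +
        (∑ k, m k * ψ k - ∑ k, m k * ψ' k) := by ring
  rw [hsplit]
  have h3 := abs_add_le (∫ x, ppot y ψ x ∂(unif K) - ∫ x, ppot y ψ' x ∂(unif K))
    (∑ k, m k * ψ k - ∑ k, m k * ψ' k)
  linarith

lemma continuous_Phi {K : Set (E d)} (hK : IsCompact K) (hint : (interior K).Nonempty)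
    (y : Fin (n + 1) → E d) {m : Fin (n + 1) → ℝ} (hm : ∀ k, 0 ≤ m k) (hsum : ∑ k, m k = 1) :
    Continuous (Phi K y m) := by
  have : LipschitzWith 2 (Phi K y m) := by
    refine LipschitzWith.of_dist_le_mul fun ψ ψ' => ?_
    rw [Real.dist_eq, dist_eq_norm]
    simpa using Phi_sub_le hK hint y hm hsum ψ ψ'
  exact this.continuous

lemma ppot_add_const (y : Fin (n + 1) → E d) (ψ : Fin (n + 1) → ℝ) (c : ℝ) (x : E d) :
    ppot y (fun k => ψ k + c) x = ppot y ψ x - c := by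
  apply le_antisymm
  · refine Finset.sup'_le _ _ (fun j _ => ?_)
    have := ppot_ge y ψ x j
    linarith
  · have h := ppot_ge y (fun k => ψ k + c) x (pidx y ψ x)
    rw [ppot_eq_pidx y ψ x]
    linarith

lemma Phi_add_const {K : Set (E d)} (hK : IsCompact K) (hint : (interior K).Nonempty)
    (y : Fin (n + 1) → E d) {m : Fin (n + 1) → ℝ} (hsum : ∑ k, m k = 1)
    (ψ : Fin (n + 1) → ℝ) (c : ℝ) : Phi K y m (fun k => ψ k + c) = Phi K y m ψ := by
  have := unif_isProbabilityMeasure hK hint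
  unfold Phi
  have h1 : ∫ x, ppot y (fun k => ψ k + c) x ∂(unif K) = ∫ x, ppot y ψ x ∂(unif K) - c := by
    simp_rw [ppot_add_const]
    rw [integral_sub (integrable_ppot hK hint y ψ) (integrable_const c)]
    simp
  have h2 : ∑ k, m k * (ψ k + c) = ∑ k, m k * ψ k + c := by
    simp_rw [mul_add]
    rw [Finset.sum_add_distrib, ← Finset.sum_mul, hsum, one_mul]
  rw [h1, h2]
  ring

lemma Phi_ge {K : Set (E d)} (hK : IsCompact K) (hint : (interior K).Nonempty)
    {y : Fin (n + 1) → E d} {R D : ℝ} (hR : ∀ k, ‖y k‖ ≤ R) (hD : ∀ x ∈ K, ‖x‖ ≤ D)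
    {m : Fin (n + 1) → ℝ} (hm : ∀ k, 0 ≤ m k) {ψ : Fin (n + 1) → ℝ} (j k : Fin (n + 1))
    (hj : ψ j = 0) (hpos : ∀ i, 0 ≤ ψ i) : -(D * R) + m k * ψ k ≤ Phi K y m ψ := by
  have := unif_isProbabilityMeasure hK hint
  have h1 : -(D * R) ≤ ∫ x, ppot y ψ x ∂(unif K) := by
    have : ∫ _, (-(D * R)) ∂(unif K) ≤ ∫ x, ppot y ψ x ∂(unif K) := by
      refine integral_mono_ae (integrable_const _) (integrable_ppot hK hint y ψ) ?_
      filter_upwards [ae_mem_unif hK] with x hx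
      have h := ppot_ge y ψ x j
      rw [hj, sub_zero] at h
      have h2 : |inner ℝ x (y j)| ≤ ‖x‖ * ‖y j‖ := abs_real_inner_le_norm _ _
      have h3 : ‖x‖ * ‖y j‖ ≤ D * R :=
        mul_le_mul (hD x hx) (hR j) (norm_nonneg _) (le_trans (norm_nonneg _) (hD x hx))
      have h4 := neg_abs_le (inner ℝ x (y j))
      linarith
    simpa using this
  have h2 : m k * ψ k ≤ ∑ i, m i * ψ i :=
    Finset.single_le_sum (f := fun i => m i * ψ i) (fun i _ => mul_nonneg (hm i) (hpos i))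
      (Finset.mem_univ k)
  unfold Phi
  linarith

lemma Phi_zero_le {K : Set (E d)} (hK : IsCompact K) (hint : (interior K).Nonempty)
    {y : Fin (n + 1) → E d} {R D : ℝ} (hR : ∀ k, ‖y k‖ ≤ R) (hD : ∀ x ∈ K, ‖x‖ ≤ D)
    (m : Fin (n + 1) → ℝ) : Phi K y m 0 ≤ D * R := by
  have := unif_isProbabilityMeasure hK hint
  have h1 : ∫ x, ppot y 0 x ∂(unif K) ≤ D * R := by
    have : ∫ x, ppot y 0 x ∂(unif K) ≤ ∫ _, (D * R) ∂(unif K) := by
      refine integral_mono_ae (integrable_ppot hK hint y 0) (integrable_const _) ?_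
      filter_upwards [ae_mem_unif hK] with x hx
      have h := abs_ppot_le hR (0 : Fin (n + 1) → ℝ) (hD x hx)
      rw [norm_zero, add_zero] at h
      exact (abs_le.mp h).2
    simpa using this
  unfold Phi
  simpa using h1

lemma exists_minimizer {K : Set (E d)} (hK : IsCompact K) (hint : (interior K).Nonempty)
    (y : Fin (n + 1) → E d) {m : Fin (n + 1) → ℝ} (hm : ∀ k, 0 < m k) (hsum : ∑ k, m k = 1) :
    ∃ ψ₀ : Fin (n + 1) → ℝ, ∀ ψ, Phi K y m ψ₀ ≤ Phi K y m ψ := by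
  obtain ⟨R, -, hR⟩ := exists_bound y
  obtain ⟨D, hD⟩ := hK.isBounded.exists_norm_le
  obtain ⟨k0, -, hk0⟩ := Finset.exists_min_image Finset.univ m Finset.univ_nonempty
  have hcpos : 0 < m k0 := hm k0
  set B : ℝ := (2 * (D * R) + 1) / m k0 with hB
  have hcont := continuous_Phi hK hint y (fun k => (hm k).le) hsum
  obtain ⟨ψ₀, -, hψ₀⟩ := (isCompact_closedBall (0 : Fin (n + 1) → ℝ) |B|).exists_isMinOn
    (Metric.nonempty_closedBall.2 (abs_nonneg B)) hcont.continuousOn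
  refine ⟨ψ₀, fun ψ => ?_⟩
  obtain ⟨j, -, hj⟩ := Finset.exists_min_image Finset.univ ψ Finset.univ_nonempty
  set ψ' : Fin (n + 1) → ℝ := fun k => ψ k + (-(ψ j)) with hψ'
  have hΦ : Phi K y m ψ' = Phi K y m ψ := Phi_add_const hK hint y hsum ψ _
  have hpos : ∀ i, 0 ≤ ψ' i := fun i => by
    have := hj i (Finset.mem_univ i)
    simp only [hψ']
    linarith
  have hj0 : ψ' j = 0 := by simp [hψ']
  rw [← hΦ]
  by_cases hbig : ∀ k, ψ' k ≤ |B|
  · have hmem : ψ' ∈ Metric.closedBall (0 : Fin (n + 1) → ℝ) |B| := by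
      rw [mem_closedBall_zero_iff, pi_norm_le_iff_of_nonneg (abs_nonneg B)]
      intro k
      rw [Real.norm_eq_abs, abs_of_nonneg (hpos k)]
      exact hbig k
    exact hψ₀ hmem
  · push Not at hbig
    obtain ⟨k, hk⟩ := hbig
    have h1 := Phi_ge hK hint hR hD (fun i => (hm i).le) j k hj0 hpos
    have h0mem : (0 : Fin (n + 1) → ℝ) ∈ Metric.closedBall (0 : Fin (n + 1) → ℝ) |B| :=
      Metric.mem_closedBall_self (abs_nonneg B)
    have h2 : Phi K y m ψ₀ ≤ Phi K y m 0 := hψ₀ h0mem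
    have h3 := Phi_zero_le hK hint hR hD m
    have h4 : m k0 * B ≤ m k * ψ' k := by
      have hB' : B ≤ ψ' k := le_trans (le_abs_self B) hk.le
      have hle : m k0 ≤ m k := hk0 k (Finset.mem_univ k)
      calc m k0 * B ≤ m k0 * ψ' k := mul_le_mul_of_nonneg_left hB' hcpos.le
        _ ≤ m k * ψ' k := mul_le_mul_of_nonneg_right hle (hpos k)
    have h5 : m k0 * B = 2 * (D * R) + 1 := by
      rw [hB]
      field_simp
    linarith

lemma ppot_bump_le (y : Fin (n + 1) → E d) (ψ : Fin (n + 1) → ℝ) (i : Fin (n + 1)) {t : ℝ}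
    (ht : 0 ≤ t) (x : E d) : ppot y (bump ψ i t) x ≤ ppot y ψ x := by
  refine Finset.sup'_le _ _ (fun j _ => ?_)
  have h := ppot_ge y ψ x j
  by_cases hji : j = i
  · rw [hji, bump_self]
    rw [hji] at h
    linarith
  · rw [bump_of_ne ψ hji]
    exact h

lemma ppot_bump_le_sub (K : Set (E d)) (y : Fin (n + 1) → E d) (ψ : Fin (n + 1) → ℝ)
    (i : Fin (n + 1)) (t : ℝ) {x : E d} (hx : x ∈ pcell K y (bump ψ i t) i) :
    ppot y (bump ψ i t) x ≤ ppot y ψ x - t := by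
  rw [ppot_eq_of_mem hx, bump_self]
  have h := ppot_ge y ψ x i
  linarith

lemma cmass_bump_le {K : Set (E d)} (hK : IsCompact K) (hint : (interior K).Nonempty)
    (y : Fin (n + 1) → E d) {m : Fin (n + 1) → ℝ} {ψ₀ : Fin (n + 1) → ℝ}
    (hmin : ∀ ψ, Phi K y m ψ₀ ≤ Phi K y m ψ) (i : Fin (n + 1)) {t : ℝ} (ht : 0 < t) :
    cmass K y (bump ψ₀ i t) i ≤ m i := by
  have := unif_isProbabilityMeasure hK hint
  have hmeas := measurableSet_pcell hK.isClosed y (bump ψ₀ i t) i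
  have hpt : ∀ x, ppot y (bump ψ₀ i t) x ≤
      ppot y ψ₀ x - (pcell K y (bump ψ₀ i t) i).indicator (fun _ => t) x := by
    intro x
    by_cases hx : x ∈ pcell K y (bump ψ₀ i t) i
    · rw [Set.indicator_of_mem hx]
      exact ppot_bump_le_sub K y ψ₀ i t hx
    · rw [Set.indicator_of_notMem hx, sub_zero]
      exact ppot_bump_le y ψ₀ i ht.le x
  have hI : Integrable ((pcell K y (bump ψ₀ i t) i).indicator (fun _ => t)) (unif K) :=
    (integrable_const t).indicator hmeas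
  have hint1 : ∫ x, ppot y (bump ψ₀ i t) x ∂(unif K) ≤
      ∫ x, ppot y ψ₀ x ∂(unif K) - t * cmass K y (bump ψ₀ i t) i := by
    calc ∫ x, ppot y (bump ψ₀ i t) x ∂(unif K)
        ≤ ∫ x, (ppot y ψ₀ x - (pcell K y (bump ψ₀ i t) i).indicator (fun _ => t) x) ∂(unif K) :=
          integral_mono (integrable_ppot hK hint y _) ((integrable_ppot hK hint y ψ₀).sub hI) hpt
      _ = ∫ x, ppot y ψ₀ x ∂(unif K) -
            ∫ x, (pcell K y (bump ψ₀ i t) i).indicator (fun _ => t) x ∂(unif K) :=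
          integral_sub (integrable_ppot hK hint y ψ₀) hI
      _ = ∫ x, ppot y ψ₀ x ∂(unif K) - t * cmass K y (bump ψ₀ i t) i := by
          rw [integral_indicator hmeas, setIntegral_const_pcell hK hint, mul_comm]
  have hsum : ∑ k, m k * bump ψ₀ i t k = ∑ k, m k * ψ₀ k + t * m i := by
    have : ∀ k, m k * bump ψ₀ i t k = m k * ψ₀ k + (if k = i then t * m i else 0) := by
      intro k
      by_cases hki : k = i
      · rw [hki, bump_self, if_pos rfl]
        ring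
      · rw [bump_of_ne ψ₀ hki, if_neg hki, add_zero]
    simp_rw [this]
    rw [Finset.sum_add_distrib]
    simp
  have h := hmin (bump ψ₀ i t)
  unfold Phi at h
  rw [hsum] at h
  have h' : t * cmass K y (bump ψ₀ i t) i ≤ t * m i := by linarith
  exact le_of_mul_le_mul_left h' ht

/-- The strict power cell. -/
def scell (K : Set (E d)) (y : Fin (n + 1) → E d) (ψ : Fin (n + 1) → ℝ) (i : Fin (n + 1)) :
    Set (E d) :=
  {x | x ∈ K ∧ ∀ j, j ≠ i → inner ℝ x (y j) - ψ j < inner ℝ x (y i) - ψ i}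

lemma scell_subset_iUnion (K : Set (E d)) (y : Fin (n + 1) → E d) (ψ : Fin (n + 1) → ℝ)
    (i : Fin (n + 1)) :
    scell K y ψ i ⊆ ⋃ N : ℕ, pcell K y (bump ψ i (1 / ((N : ℝ) + 1))) i := by
  rintro x ⟨hxK, hx⟩
  have hgap : ∃ ε : ℝ, 0 < ε ∧
      ∀ j, j ≠ i → inner ℝ x (y j) - ψ j + ε ≤ inner ℝ x (y i) - ψ i := by
    by_cases hne : (Finset.univ.erase i).Nonempty
    · obtain ⟨j0, hj0mem, hj0⟩ := Finset.exists_max_image (Finset.univ.erase i)
        (fun j => inner ℝ x (y j) - ψ j) hne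
      refine ⟨(inner ℝ x (y i) - ψ i) - (inner ℝ x (y j0) - ψ j0), ?_, fun j hj => ?_⟩
      · have := hx j0 (Finset.ne_of_mem_erase hj0mem)
        linarith
      · have := hj0 j (Finset.mem_erase.2 ⟨hj, Finset.mem_univ j⟩)
        linarith
    · refine ⟨1, one_pos, fun j hj => ?_⟩
      exact absurd ⟨j, Finset.mem_erase.2 ⟨hj, Finset.mem_univ j⟩⟩ hne
  obtain ⟨ε, hε, hgap⟩ := hgap
  obtain ⟨N, hN⟩ := exists_nat_one_div_lt hε
  refine Set.mem_iUnion.2 ⟨N, hxK, fun j => ?_⟩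
  by_cases hji : j = i
  · rw [hji]
  · rw [bump_of_ne ψ hji, bump_self]
    have := hgap j hji
    linarith

lemma pcell_bump_mono (K : Set (E d)) (y : Fin (n + 1) → E d) (ψ : Fin (n + 1) → ℝ)
    (i : Fin (n + 1)) {t t' : ℝ} (h : t' ≤ t) :
    pcell K y (bump ψ i t) i ⊆ pcell K y (bump ψ i t') i := by
  rintro x ⟨hxK, hx⟩
  refine ⟨hxK, fun j => ?_⟩
  by_cases hji : j = i
  · rw [hji]
  · have := hx j
    rw [bump_of_ne ψ hji, bump_self] at this
    rw [bump_of_ne ψ hji, bump_self]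
    linarith

lemma unif_scell_le {K : Set (E d)} (hK : IsCompact K) (hint : (interior K).Nonempty)
    (y : Fin (n + 1) → E d) {m : Fin (n + 1) → ℝ} {ψ₀ : Fin (n + 1) → ℝ}
    (hmin : ∀ ψ, Phi K y m ψ₀ ≤ Phi K y m ψ) (i : Fin (n + 1)) :
    unif K (scell K y ψ₀ i) ≤ ENNReal.ofReal (m i) := by
  have hmono : Monotone (fun N : ℕ => pcell K y (bump ψ₀ i (1 / ((N : ℝ) + 1))) i) := by
    intro N M hNM
    apply pcell_bump_mono
    apply one_div_le_one_div_of_le (by positivity)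
    have : (N : ℝ) ≤ (M : ℝ) := by exact_mod_cast hNM
    linarith
  calc unif K (scell K y ψ₀ i)
      ≤ unif K (⋃ N : ℕ, pcell K y (bump ψ₀ i (1 / ((N : ℝ) + 1))) i) :=
        measure_mono (scell_subset_iUnion K y ψ₀ i)
    _ = ⨆ N : ℕ, unif K (pcell K y (bump ψ₀ i (1 / ((N : ℝ) + 1))) i) := hmono.measure_iUnion
    _ ≤ ENNReal.ofReal (m i) := by
        refine iSup_le fun N => ?_
        rw [← ofReal_cmass hK hint]
        exact ENNReal.ofReal_le_ofReal (cmass_bump_le hK hint y hmin i (by positivity))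

lemma unif_pcell_le_scell (K : Set (E d)) {y : Fin (n + 1) → E d} (hy : Function.Injective y)
    (ψ : Fin (n + 1) → ℝ) (i : Fin (n + 1)) :
    unif K (pcell K y ψ i) ≤ unif K (scell K y ψ i) := by
  have hsub : pcell K y ψ i ⊆ scell K y ψ i ∪
      ⋃ j ∈ (Finset.univ.erase i : Finset (Fin (n + 1))),
        {x : E d | inner ℝ x (y i - y j) = ψ i - ψ j} := by
    rintro x ⟨hxK, hx⟩
    by_cases h : ∀ j, j ≠ i → inner ℝ x (y j) - ψ j < inner ℝ x (y i) - ψ i
    · exact Or.inl ⟨hxK, h⟩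
    · push Not at h
      obtain ⟨j, hji, hj⟩ := h
      right
      refine Set.mem_iUnion₂.2 ⟨j, Finset.mem_erase.2 ⟨hji, Finset.mem_univ j⟩, ?_⟩
      have := hx j
      simp only [Set.mem_ofPred_eq, inner_sub_right]
      linarith
  have hnull : unif K (⋃ j ∈ (Finset.univ.erase i : Finset (Fin (n + 1))),
      {x : E d | inner ℝ x (y i - y j) = ψ i - ψ j}) = 0 := by
    apply unif_ac K
    refine le_antisymm ?_ zero_le
    calc volume (⋃ j ∈ (Finset.univ.erase i : Finset (Fin (n + 1))),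
          {x : E d | inner ℝ x (y i - y j) = ψ i - ψ j})
        ≤ ∑ j ∈ (Finset.univ.erase i : Finset (Fin (n + 1))),
          volume {x : E d | inner ℝ x (y i - y j) = ψ i - ψ j} :=
          measure_biUnion_finset_le _ _
      _ = 0 := Finset.sum_eq_zero fun j hj =>
          volume_hyperplane _ (sub_ne_zero.2 (hy.ne (Finset.ne_of_mem_erase hj).symm)) _
  calc unif K (pcell K y ψ i) ≤ unif K (scell K y ψ i ∪
        ⋃ j ∈ (Finset.univ.erase i : Finset (Fin (n + 1))),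
          {x : E d | inner ℝ x (y i - y j) = ψ i - ψ j}) := measure_mono hsub
    _ ≤ unif K (scell K y ψ i) + unif K (⋃ j ∈ (Finset.univ.erase i : Finset (Fin (n + 1))),
          {x : E d | inner ℝ x (y i - y j) = ψ i - ψ j}) := measure_union_le _ _
    _ = unif K (scell K y ψ i) := by rw [hnull, add_zero]

end Exist

/-- Existence of a power diagram with prescribed positive cell masses. -/
theorem ex_statement (d : ℕ) : ExStatement d := by
  intro K hK _ hint n y hy m hm hsum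
  obtain ⟨ψ₀, hmin⟩ := Exist.exists_minimizer hK hint y hm hsum
  refine ⟨ψ₀, ?_⟩
  have hle : ∀ k, cmass K y ψ₀ k ≤ m k := by
    intro k
    have h1 : unif K (pcell K y ψ₀ k) ≤ ENNReal.ofReal (m k) :=
      (Exist.unif_pcell_le_scell K hy ψ₀ k).trans (Exist.unif_scell_le hK hint y hmin k)
    unfold cmass
    exact ENNReal.toReal_le_of_le_ofReal (hm k).le h1
  have hs := sum_cmass hK hint hy ψ₀
  intro k
  by_contra hne
  have hlt : cmass K y ψ₀ k < m k := lt_of_le_of_ne (hle k) hne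
  have hlt2 : ∑ j, cmass K y ψ₀ j < ∑ j, m j :=
    Finset.sum_lt_sum (fun j _ => hle j) ⟨k, Finset.mem_univ k, hlt⟩
  rw [hs, hsum] at hlt2
  exact lt_irrefl _ hlt2

end Vale.Agent.Lib.P074
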